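import Mathlib
import Vale.Agent.Lib.P335.helper26.Abstract

/-!
P328: a three-projection inequality for a system with an exchange symmetry.

On a finite type `Ω` with the uniform measure let `κB`, `κa`, `κb` be three maps and `τ` a
bijection of `Ω` that fixes `κB` and exchanges `κa` and `κb`.  If functions of `κa` and of
`κb` are negatively correlated in the sense
`∑ x, σ (κa x) = 0 → ∑ x, σ (κa x) * σ (κb x) ≤ 0` for every `σ`, then the conditional
expectations given `κB`, `κa`, `κb` add up to at most twice the identity plus the global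
average (as quadratic forms).

* `swap_rows_ineq` : the row form of the inequality.
* `threeProj_of_swap` : the operator form.
-/

namespace Vale.Agent.Lib.P328.H85

open Finset
open Vale.Agent.Lib.P335.Bip

section

variable {Ω K K' : Type*} [Fintype Ω]

/-- Row form: for a `τ`-invariant `FB` and centred functions `s ∘ κa`, `t ∘ κb`, the square
of the sum is at most twice the sum of the squares. -/
theorem swap_rows_ineq (τ : Ω ≃ Ω) (κa κb : Ω → K')
    (hab : ∀ x, κa (τ x) = κb x) (hba : ∀ x, κb (τ x) = κa x)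
    (hNC : ∀ σ : K' → ℝ, ∑ x, σ (κa x) = 0 → ∑ x, σ (κa x) * σ (κb x) ≤ 0)
    (FB : Ω → ℝ) (hFB : ∀ x, FB (τ x) = FB x) (s t : K' → ℝ)
    (hs : ∑ x, s (κa x) = 0) (ht : ∑ x, t (κb x) = 0) :
    ∑ x, (FB x + s (κa x) + t (κb x)) ^ 2
      ≤ 2 * (∑ x, FB x ^ 2 + ∑ x, s (κa x) ^ 2 + ∑ x, t (κb x) ^ 2) := by
  have hτ : ∀ F : Ω → ℝ, ∑ x, F (τ x) = ∑ x, F x := fun F => Equiv.sum_comp τ F
  set σ : K' → ℝ := fun v => (s v + t v) / 2 with hσ
  set δ : K' → ℝ := fun v => (s v - t v) / 2 with hδ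
  -- (e1) the `τ`-invariant function sees only the symmetrised part
  have e1 : ∑ x, FB x * (s (κb x) + t (κa x)) = ∑ x, FB x * (s (κa x) + t (κb x)) := by
    have h := hτ (fun x => FB x * (s (κa x) + t (κb x)))
    simp only [hFB, hab, hba] at h
    exact h
  -- (e2) the cross term vanishes
  have e2 : ∑ x, (σ (κa x) - σ (κb x)) * (δ (κa x) + δ (κb x)) = 0 := by
    have h := hτ (fun x => (σ (κa x) - σ (κb x)) * (δ (κa x) + δ (κb x)))
    simp only [hab, hba] at h
    have h' : ∑ x, (σ (κb x) - σ (κa x)) * (δ (κb x) + δ (κa x))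
        = - ∑ x, (σ (κa x) - σ (κb x)) * (δ (κa x) + δ (κb x)) := by
      rw [← Finset.sum_neg_distrib]
      exact Finset.sum_congr rfl (fun x _ => by ring)
    rw [h'] at h
    linarith
  -- (e3) negative correlation for the symmetric part
  have e3 : ∑ x, σ (κa x) * σ (κb x) ≤ 0 := by
    apply hNC
    have h1 : ∑ x, t (κa x) = 0 := by
      have h := hτ (fun x => t (κb x))
      simp only [hba] at h
      rw [h, ht]
    have h2 : ∑ x, σ (κa x) = (∑ x, s (κa x) + ∑ x, t (κa x)) / 2 := by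
      rw [← Finset.sum_add_distrib, Finset.sum_div]
    rw [h2, hs, h1]
    norm_num
  -- pointwise identity
  have key : ∀ x, 2 * (FB x ^ 2 + s (κa x) ^ 2 + t (κb x) ^ 2)
        - (FB x + s (κa x) + t (κb x)) ^ 2
      = (FB x - (s (κa x) + t (κb x) + s (κb x) + t (κa x)) / 2) ^ 2
        + (FB x * (s (κb x) + t (κa x)) - FB x * (s (κa x) + t (κb x)))
        + (δ (κa x) + δ (κb x)) ^ 2
        + 2 * ((σ (κa x) - σ (κb x)) * (δ (κa x) + δ (κb x)))
        - 4 * (σ (κa x) * σ (κb x)) := by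
    intro x
    simp only [hσ, hδ]
    ring
  have hsum := Finset.sum_congr (s₁ := (univ : Finset Ω)) rfl (fun x _ => key x)
  simp only [Finset.sum_add_distrib, Finset.sum_sub_distrib, ← Finset.mul_sum] at hsum
  have hn1 : 0 ≤ ∑ x, (FB x - (s (κa x) + t (κb x) + s (κb x) + t (κa x)) / 2) ^ 2 :=
    Finset.sum_nonneg (fun x _ => sq_nonneg _)
  have hn2 : 0 ≤ ∑ x, (δ (κa x) + δ (κb x)) ^ 2 :=
    Finset.sum_nonneg (fun x _ => sq_nonneg _)
  linarith

end

section

variable {Ω : Type*} [Fintype Ω]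

/-- the squared norm of a centred conditional expectation -/
theorem ip_centred_self {L : Type*} [DecidableEq L] (κ : Ω → L) (g : Ω → ℝ) :
    ip (cexp κ g - cexp (fun _ : Ω => ()) g) (cexp κ g - cexp (fun _ : Ω => ()) g)
      = ip g (cexp κ g) - ip g (cexp (fun _ : Ω => ()) g) := by
  have h1 : ip (cexp κ g) (cexp κ g) = ip g (cexp κ g) := (ip_cexp_self κ g).symm
  have h2 : ip (cexp κ g) (cexp (fun _ : Ω => ()) g) = ip g (cexp (fun _ : Ω => ()) g) := by
    rw [← cexp_symm, cexp_tower' κ (fun _ : Ω => ()) (fun _ _ _ => rfl)]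
  have h3 : ip (cexp (fun _ : Ω => ()) g) (cexp κ g) = ip g (cexp (fun _ : Ω => ()) g) := by
    rw [ip_comm, h2]
  have h4 : ip (cexp (fun _ : Ω => ()) g) (cexp (fun _ : Ω => ()) g)
      = ip g (cexp (fun _ : Ω => ()) g) := (ip_cexp_self _ g).symm
  rw [ip_sub_left, ip_sub_right, ip_sub_right, h1, h2, h3, h4]
  ring

/-- the centred function against a centred conditional expectation -/
theorem ip_sub_centred {L : Type*} [DecidableEq L] (κ : Ω → L) (g : Ω → ℝ) :
    ip (g - cexp (fun _ : Ω => ()) g) (cexp κ g - cexp (fun _ : Ω => ()) g)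
      = ip g (cexp κ g) - ip g (cexp (fun _ : Ω => ()) g) := by
  have h2 : ip (cexp κ g) (cexp (fun _ : Ω => ()) g) = ip g (cexp (fun _ : Ω => ()) g) := by
    rw [← cexp_symm, cexp_tower' κ (fun _ : Ω => ()) (fun _ _ _ => rfl)]
  have h3 : ip (cexp (fun _ : Ω => ()) g) (cexp κ g) = ip g (cexp (fun _ : Ω => ()) g) := by
    rw [ip_comm, h2]
  have h4 : ip (cexp (fun _ : Ω => ()) g) (cexp (fun _ : Ω => ()) g)
      = ip g (cexp (fun _ : Ω => ()) g) := (ip_cexp_self _ g).symm
  rw [ip_sub_left, ip_sub_right, ip_sub_right, h3, h4]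
  ring

theorem sum_centred {L : Type*} [DecidableEq L] (κ : Ω → L) (g : Ω → ℝ) :
    ∑ x, (cexp κ g - cexp (fun _ : Ω => ()) g) x = 0 := by
  simp only [Pi.sub_apply]
  rw [Finset.sum_sub_distrib, sum_cexp, sum_cexp, sub_self]

theorem centred_congr {L : Type*} [DecidableEq L] (κ : Ω → L) (g : Ω → ℝ) {x y : Ω}
    (h : κ x = κ y) :
    (cexp κ g - cexp (fun _ : Ω => ()) g) x = (cexp κ g - cexp (fun _ : Ω => ()) g) y := by
  simp only [Pi.sub_apply]
  rw [cexp_congr κ h g, cexp_congr (fun _ : Ω => ()) (rfl : () = ()) g]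

/-- the global average as a quadratic form -/
theorem ip_cexp_unit (g : Ω → ℝ) :
    ip g (cexp (fun _ : Ω => ()) g) = (∑ x, g x) ^ 2 / (Fintype.card Ω : ℝ) := by
  unfold ip
  have h : ∀ x : Ω, cexp (fun _ : Ω => ()) g x = (∑ y, g y) / (Fintype.card Ω : ℝ) := by
    intro x
    rw [cexp_apply]
    have hfil : (univ.filter (fun _ : Ω => () = ())) = univ := by
      ext y
      simp
    rw [hfil, Finset.card_univ]
  rw [Finset.sum_congr rfl (fun x _ => by rw [h x]), ← Finset.sum_mul]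
  ring

variable {K K' : Type*} [DecidableEq K] [DecidableEq K']

/-- **Three projections with an exchange symmetry.**  If a bijection `τ` fixes `κB` and
exchanges `κa` and `κb`, and functions of `κa` and `κb` are negatively correlated, then the
conditional expectations given `κB`, `κa`, `κb` add up to at most twice the identity plus
the global average. -/
theorem threeProj_of_swap (κB : Ω → K) (κa κb : Ω → K') (τ : Ω ≃ Ω)
    (hB : ∀ x, κB (τ x) = κB x) (hab : ∀ x, κa (τ x) = κb x) (hba : ∀ x, κb (τ x) = κa x)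
    (hNC : ∀ σ : K' → ℝ, ∑ x, σ (κa x) = 0 → ∑ x, σ (κa x) * σ (κb x) ≤ 0) (g : Ω → ℝ) :
    ip g (cexp κB g) + ip g (cexp κa g) + ip g (cexp κb g)
      ≤ 2 * ip g g + (∑ x, g x) ^ 2 / (Fintype.card Ω : ℝ) := by
  classical
  rw [← ip_cexp_unit g]
  set FB : Ω → ℝ := cexp κB g - cexp (fun _ : Ω => ()) g with hFBdef
  set Fa : Ω → ℝ := cexp κa g - cexp (fun _ : Ω => ()) g with hFadef
  set Fb : Ω → ℝ := cexp κb g - cexp (fun _ : Ω => ()) g with hFbdef
  have hFBτ : ∀ x, FB (τ x) = FB x := fun x => centred_congr κB g (hB x)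
  obtain ⟨s, hs⟩ : ∃ s : K' → ℝ, ∀ x, s (κa x) = Fa x := by
    refine ⟨fun v => if hv : ∃ y, κa y = v then Fa hv.choose else 0, fun x => ?_⟩
    have hx : ∃ y, κa y = κa x := ⟨x, rfl⟩
    simp only
    rw [dif_pos hx]
    exact centred_congr κa g hx.choose_spec
  obtain ⟨t, ht⟩ : ∃ t : K' → ℝ, ∀ x, t (κb x) = Fb x := by
    refine ⟨fun v => if hv : ∃ y, κb y = v then Fb hv.choose else 0, fun x => ?_⟩
    have hx : ∃ y, κb y = κb x := ⟨x, rfl⟩
    simp only
    rw [dif_pos hx]
    exact centred_congr κb g hx.choose_spec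
  have hs0 : ∑ x, s (κa x) = 0 := by
    rw [Finset.sum_congr rfl (fun x _ => hs x)]
    exact sum_centred κa g
  have ht0 : ∑ x, t (κb x) = 0 := by
    rw [Finset.sum_congr rfl (fun x _ => ht x)]
    exact sum_centred κb g
  have hrow := swap_rows_ineq τ κa κb hab hba hNC FB hFBτ s t hs0 ht0
  simp only [hs, ht] at hrow
  -- translate to `ip`
  have hGG : ip (FB + Fa + Fb) (FB + Fa + Fb) ≤ 2 * (ip FB FB + ip Fa Fa + ip Fb Fb) := by
    rw [ip_eq_sum_sq, ip_eq_sum_sq, ip_eq_sum_sq, ip_eq_sum_sq]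
    exact hrow
  have hSG : ip (g - cexp (fun _ : Ω => ()) g) (FB + Fa + Fb)
      = ip FB FB + ip Fa Fa + ip Fb Fb := by
    rw [ip_add_right, ip_add_right, hFBdef, hFadef, hFbdef, ip_sub_centred, ip_sub_centred,
      ip_sub_centred, ip_centred_self, ip_centred_self, ip_centred_self]
  have hVV : ip (g - cexp (fun _ : Ω => ()) g) (g - cexp (fun _ : Ω => ()) g)
      = ip g g - ip g (cexp (fun _ : Ω => ()) g) := ip_sub_cexp _ g
  have hCS := ip_cauchy_schwarz (g - cexp (fun _ : Ω => ()) g) (FB + Fa + Fb)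
  rw [hSG, hVV] at hCS
  have hV0 : 0 ≤ ip g g - ip g (cexp (fun _ : Ω => ()) g) := by
    rw [← hVV]
    exact ip_self_nonneg _
  have hS2 : ip FB FB + ip Fa Fa + ip Fb Fb
      ≤ 2 * (ip g g - ip g (cexp (fun _ : Ω => ()) g)) := by
    by_contra hcon
    push Not at hcon
    have h1 : (ip g g - ip g (cexp (fun _ : Ω => ()) g)) * ip (FB + Fa + Fb) (FB + Fa + Fb)
        ≤ (ip g g - ip g (cexp (fun _ : Ω => ()) g))
          * (2 * (ip FB FB + ip Fa Fa + ip Fb Fb)) :=
      mul_le_mul_of_nonneg_left hGG hV0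
    nlinarith
  have e1 : ip FB FB = ip g (cexp κB g) - ip g (cexp (fun _ : Ω => ()) g) := by
    rw [hFBdef, ip_centred_self]
  have e2 : ip Fa Fa = ip g (cexp κa g) - ip g (cexp (fun _ : Ω => ()) g) := by
    rw [hFadef, ip_centred_self]
  have e3 : ip Fb Fb = ip g (cexp κb g) - ip g (cexp (fun _ : Ω => ()) g) := by
    rw [hFbdef, ip_centred_self]
  rw [e1, e2, e3] at hS2
  linarith

end

end Vale.Agent.Lib.P328.H85
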