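import Mathlib
import Vale.Agent.Lib.P328.RP.Defs
import Vale.Agent.Lib.P328.RP.ThreeProj
import Vale.Agent.Lib.P328.helper85.BlockTriple

/-!
P328: the sharp block triple (two arbitrary rows as one site, two unit rows) for `4 × n`
contingency tables.

* `lev c ρ` : the level set `{u ≤ c, ∑ u = ρ}` of the box `∏ [0, c j]`.
* `free c s u` : the sum of the weights `s j` over the columns that are not full at `u`;
  `sub1 c s t u` : the sum of `s j * t j` over the columns with `u j + 1 = c j`.
* `Star` : the box inequality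
  `|L| * ∑_{u ∈ L} (free s u ^ 2 - sub1 s s u) ≤ (∑_{u ∈ L} free s u) ^ 2`, `L = lev c ρ`
  (negative correlation of two unit rows given two arbitrary rows, in counting form).
* `sum_tables` : for `4 × n` tables whose rows `2`, `3` have sum one, the sum of
  `σ (row 2) * σ' (row 3)` over all tables as a sum over the level set of the box.
* `negCorr_of_star`, `fourRow_block` : negative correlation of the two unit rows, and the
  resulting block inequality
  `⟨g, R {0,1,2} g⟩ + ⟨g, R {0,1,3} g⟩ + ⟨g, R {2,3} g⟩ ≤ 2 ⟨g, g⟩ + ⟨g, R univ g⟩`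
  for row sums `r 2, r 3 ≤ 1`.
-/

namespace Vale.Agent.Lib.P328.H85

open Finset
open Vale.Agent.Lib.P335.Bip
open Vale.Agent.Lib.P328.RP

section box

variable {n : ℕ}

/-- The level set `{u : u j ≤ c j for all j, ∑ u = ρ}` of the box with side lengths `c`. -/
def lev (c : Fin n → ℕ) (ρ : ℕ) : Finset (Fin n → ℕ) :=
  (Fintype.piFinset fun j => Finset.range (c j + 1)).filter (fun u => ∑ j, u j = ρ)

theorem mem_lev (c : Fin n → ℕ) (ρ : ℕ) (u : Fin n → ℕ) :
    u ∈ lev c ρ ↔ (∀ j, u j ≤ c j) ∧ ∑ j, u j = ρ := by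
  unfold lev
  rw [Finset.mem_filter, Fintype.mem_piFinset]
  simp only [Finset.mem_range, Nat.lt_succ_iff]

/-- The sum of the weights of the columns that are not full at `u`. -/
def free (c : Fin n → ℕ) (s : Fin n → ℝ) (u : Fin n → ℕ) : ℝ :=
  ∑ j, if u j < c j then s j else 0

/-- The sum of `s j * t j` over the columns that are one below their cap at `u`. -/
def sub1 (c : Fin n → ℕ) (s t : Fin n → ℝ) (u : Fin n → ℕ) : ℝ :=
  ∑ j, if u j + 1 = c j then s j * t j else 0

/-- The condition `u + e_j + e_l ≤ c` in terms of the columns `j`, `l`. -/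
theorem cond_iff (c : Fin n → ℕ) (u : Fin n → ℕ) (hu : ∀ j, u j ≤ c j) (j l : Fin n) :
    (∀ i, u i + (if i = j then 1 else 0) + (if i = l then 1 else 0) ≤ c i)
      ↔ (u j < c j ∧ (if l = j then u j + 2 ≤ c j else u l < c l)) := by
  constructor
  · intro h
    have hj := h j
    have hl := h l
    by_cases hlj : l = j
    · subst hlj
      simp only [if_true] at hj ⊢
      omega
    · have hjl : ¬ j = l := fun h => hlj h.symm
      simp only [if_true, if_neg hjl, if_neg hlj] at hj hl ⊢
      omega
  · rintro ⟨h1, h2⟩ i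
    have hui := hu i
    by_cases hlj : l = j
    · subst hlj
      rw [if_pos rfl] at h2
      by_cases hi : i = l
      · subst hi
        simp only [if_true]
        omega
      · simp only [if_neg hi]
        omega
    · rw [if_neg hlj] at h2
      by_cases hij : i = j
      · subst hij
        have hil : ¬ i = l := fun h => hlj h.symm
        simp only [if_true, if_neg hil]
        omega
      · by_cases hil : i = l
        · subst hil
          simp only [if_true, if_neg hij]
          omega
        · simp only [if_neg hij, if_neg hil]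
          omega

/-- The weighted number of pairs of columns `(j, l)` with `u + e_j + e_l ≤ c`. -/
theorem sum_cond (c : Fin n → ℕ) (s t : Fin n → ℝ) (u : Fin n → ℕ) (hu : ∀ j, u j ≤ c j) :
    ∑ j, ∑ l, (if ∀ i, u i + (if i = j then 1 else 0) + (if i = l then 1 else 0) ≤ c i
        then s j * t l else 0)
      = free c s u * free c t u - sub1 c s t u := by
  classical
  have hin : ∀ j, ∑ l, (if ∀ i, u i + (if i = j then 1 else 0) + (if i = l then 1 else 0) ≤ c i
        then s j * t l else 0)
      = if u j < c j then s j * (free c t u - (if u j + 1 = c j then t j else 0)) else 0 := by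
    intro j
    by_cases hj : u j < c j
    · rw [if_pos hj]
      have hterm : ∀ l, (if ∀ i, u i + (if i = j then 1 else 0) + (if i = l then 1 else 0) ≤ c i
            then s j * t l else 0)
          = s j * (if u l < c l then t l else 0)
            - (if l = j then s j * (if u j + 1 = c j then t j else 0) else 0) := by
        intro l
        by_cases hlj : l = j
        · subst hlj
          by_cases h1 : u l + 1 = c l
          · have h2 : ¬ (∀ i, u i + (if i = l then 1 else 0) + (if i = l then 1 else 0) ≤ c i) := by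
              rw [cond_iff c u hu l l]
              simp only [if_true]
              omega
            rw [if_neg h2, if_pos hj, if_pos rfl, if_pos h1]
            ring
          · have h2 : ∀ i, u i + (if i = l then 1 else 0) + (if i = l then 1 else 0) ≤ c i := by
              rw [cond_iff c u hu l l]
              simp only [if_true]
              omega
            rw [if_pos h2, if_pos hj, if_pos rfl, if_neg h1]
            ring
        · rw [if_neg hlj, sub_zero]
          by_cases hl : u l < c l
          · have h2 : ∀ i, u i + (if i = j then 1 else 0) + (if i = l then 1 else 0) ≤ c i := by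
              rw [cond_iff c u hu j l]
              simp only [if_neg hlj]
              exact ⟨hj, hl⟩
            rw [if_pos h2, if_pos hl]
          · have h2 : ¬ (∀ i, u i + (if i = j then 1 else 0) + (if i = l then 1 else 0) ≤ c i) := by
              rw [cond_iff c u hu j l]
              simp only [if_neg hlj]
              exact fun h => hl h.2
            rw [if_neg h2, if_neg hl, mul_zero]
      rw [Finset.sum_congr rfl (fun l _ => hterm l), Finset.sum_sub_distrib, ← Finset.mul_sum,
        Finset.sum_ite_eq' univ j, if_pos (Finset.mem_univ j)]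
      unfold free
      ring
    · rw [if_neg hj]
      apply Finset.sum_eq_zero
      intro l _
      have h2 : ¬ (∀ i, u i + (if i = j then 1 else 0) + (if i = l then 1 else 0) ≤ c i) := by
        rw [cond_iff c u hu j l]
        exact fun h => hj h.1
      rw [if_neg h2]
  rw [Finset.sum_congr rfl (fun j _ => hin j)]
  have hfs : free c s u * free c t u = ∑ j, (if u j < c j then s j else 0) * free c t u := by
    unfold free
    rw [Finset.sum_mul]
  unfold sub1
  rw [hfs, ← Finset.sum_sub_distrib]
  refine Finset.sum_congr rfl (fun j _ => ?_)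
  by_cases hj : u j < c j
  · by_cases h1 : u j + 1 = c j
    · rw [if_pos hj, if_pos hj, if_pos h1, if_pos h1]
      ring
    · rw [if_pos hj, if_pos hj, if_neg h1, if_neg h1]
      ring
  · have h1 : ¬ (u j + 1 = c j) := by omega
    rw [if_neg hj, if_neg hj, if_neg h1]
    ring

/-- The box inequality behind the negative correlation of two unit rows given two arbitrary
rows: for every box, level and real column weights `s`,
`|L| * ∑_{u ∈ L} ((∑_{j free at u} s j) ^ 2 - ∑_{j : u j = c j - 1} s j ^ 2)
  ≤ (∑_{u ∈ L} ∑_{j free at u} s j) ^ 2`. -/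
def Star : Prop :=
  ∀ (n : ℕ) (c : Fin n → ℕ) (ρ : ℕ) (s : Fin n → ℝ),
    ((lev c ρ).card : ℝ) * ∑ u ∈ lev c ρ, (free c s u ^ 2 - sub1 c s s u)
      ≤ (∑ u ∈ lev c ρ, free c s u) ^ 2

theorem free_add (c : Fin n → ℕ) (s : Fin n → ℝ) (θ : ℝ) (u : Fin n → ℕ) :
    free c (fun j => s j + θ) u = free c s u + θ * free c (fun _ => 1) u := by
  unfold free
  rw [Finset.mul_sum, ← Finset.sum_add_distrib]
  refine Finset.sum_congr rfl (fun j _ => ?_)
  split_ifs <;> ring

theorem sub1_add (c : Fin n → ℕ) (s : Fin n → ℝ) (θ : ℝ) (u : Fin n → ℕ) :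
    sub1 c (fun j => s j + θ) (fun j => s j + θ) u
      = sub1 c s s u + 2 * θ * sub1 c s (fun _ => 1) u
        + θ ^ 2 * sub1 c (fun _ => 1) (fun _ => 1) u := by
  unfold sub1
  rw [Finset.mul_sum, Finset.mul_sum, ← Finset.sum_add_distrib, ← Finset.sum_add_distrib]
  refine Finset.sum_congr rfl (fun j _ => ?_)
  split_ifs <;> ring

end box

section tables

variable {n : ℕ} {r : Fin 4 → ℕ} {c : Fin n → ℕ}

/-- The unit row with its unit in column `j`. -/
def eu (j : Fin n) : Fin n → ℕ := fun k => if k = j then 1 else 0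

theorem sum_eu (j : Fin n) : ∑ k, eu j k = 1 := by
  unfold eu
  rw [Finset.sum_ite_eq' univ j, if_pos (Finset.mem_univ j)]

theorem eu_injective : Function.Injective (eu : Fin n → Fin n → ℕ) := by
  intro j l h
  have h1 := congrFun h j
  unfold eu at h1
  rw [if_pos rfl] at h1
  by_contra hne
  rw [if_neg hne] at h1
  exact absurd h1 (by norm_num)

theorem four_cases : ∀ i : Fin 4, i = 0 ∨ i = 1 ∨ i = 2 ∨ i = 3 := by
  decide

/-- a row with sum one is a unit row -/
theorem exists_eu (x : CT 4 n r c) (a : Fin 4) (ha : r a = 1) : ∃ j, x.1 a = eu j := by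
  have hs : ∑ j, x.1 a j = 1 := by rw [x.2.1 a, ha]
  have hex : ∃ j, x.1 a j ≠ 0 := by
    by_contra hcon
    push Not at hcon
    rw [Finset.sum_eq_zero (fun j _ => hcon j)] at hs
    exact absurd hs (by norm_num)
  obtain ⟨j, hj⟩ := hex
  have h1 : x.1 a j + ∑ l ∈ univ.erase j, x.1 a l = ∑ l, x.1 a l :=
    Finset.add_sum_erase univ (fun l => x.1 a l) (Finset.mem_univ j)
  rw [hs] at h1
  have h2 : ∑ l ∈ univ.erase j, x.1 a l = 0 := by omega
  refine ⟨j, ?_⟩
  funext l
  unfold eu
  by_cases hl : l = j
  · rw [if_pos hl, hl]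
    omega
  · rw [if_neg hl]
    exact (Finset.sum_eq_zero_iff.mp h2) l (Finset.mem_erase.mpr ⟨hl, Finset.mem_univ l⟩)

/-- the four entries of a column add up to the column sum -/
theorem col4 (x : CT 4 n r c) (k : Fin n) : x.1 0 k + x.1 1 k + x.1 2 k + x.1 3 k = c k := by
  rw [← x.2.2 k, Fin.sum_univ_four]

/-- the total of the column sums is the total of the row sums -/
theorem total4 (x : CT 4 n r c) : ∑ j, c j = r 0 + r 1 + r 2 + r 3 := by
  have h1 : ∑ j, c j = ∑ j, ∑ i, x.1 i j := Finset.sum_congr rfl (fun j _ => (x.2.2 j).symm)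
  rw [h1, Finset.sum_comm, Fin.sum_univ_four, x.2.1 0, x.2.1 1, x.2.1 2, x.2.1 3]

/-- The array with rows `u`, `c - u - e_j - e_l`, `e_j`, `e_l`. -/
def tab (c : Fin n → ℕ) (u : Fin n → ℕ) (j l : Fin n) : Fin 4 → Fin n → ℕ :=
  ![u, fun k => c k - u k - (if k = j then 1 else 0) - (if k = l then 1 else 0), eu j, eu l]

theorem tab_zero (c : Fin n → ℕ) (u : Fin n → ℕ) (j l : Fin n) : tab c u j l 0 = u := rfl

theorem tab_one (c : Fin n → ℕ) (u : Fin n → ℕ) (j l : Fin n) :
    tab c u j l 1 = fun k => c k - u k - (if k = j then 1 else 0) - (if k = l then 1 else 0) :=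
  rfl

theorem tab_two (c : Fin n → ℕ) (u : Fin n → ℕ) (j l : Fin n) : tab c u j l 2 = eu j := rfl

theorem tab_three (c : Fin n → ℕ) (u : Fin n → ℕ) (j l : Fin n) : tab c u j l 3 = eu l := rfl

theorem tab_rows (h2 : r 2 = 1) (h3 : r 3 = 1) (hc : ∑ j, c j = r 0 + r 1 + 2)
    (u : Fin n → ℕ) (j l : Fin n) (hu : u ∈ lev c (r 0))
    (hcond : ∀ i, u i + (if i = j then 1 else 0) + (if i = l then 1 else 0) ≤ c i) (i : Fin 4) :
    ∑ k, tab c u j l i k = r i := by
  have hus := ((mem_lev c (r 0) u).mp hu).2
  rcases four_cases i with rfl | rfl | rfl | rfl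
  · rw [tab_zero]
    exact hus
  · rw [tab_one]
    show ∑ k, (c k - u k - (if k = j then 1 else 0) - (if k = l then 1 else 0)) = r 1
    have hterm : ∀ k, (c k - u k - (if k = j then 1 else 0) - (if k = l then 1 else 0))
        + u k + eu j k + eu l k = c k := by
      intro k
      have := hcond k
      unfold eu
      omega
    have hsum : ∑ k, (c k - u k - (if k = j then 1 else 0) - (if k = l then 1 else 0))
        + ∑ k, u k + ∑ k, eu j k + ∑ k, eu l k = ∑ k, c k := by
      rw [← Finset.sum_add_distrib, ← Finset.sum_add_distrib, ← Finset.sum_add_distrib]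
      exact Finset.sum_congr rfl (fun k _ => hterm k)
    rw [hus, sum_eu, sum_eu, hc] at hsum
    omega
  · rw [tab_two, sum_eu, h2]
  · rw [tab_three, sum_eu, h3]

theorem tab_cols (u : Fin n → ℕ) (j l : Fin n)
    (hcond : ∀ i, u i + (if i = j then 1 else 0) + (if i = l then 1 else 0) ≤ c i) (k : Fin n) :
    ∑ i, tab c u j l i k = c k := by
  rw [Fin.sum_univ_four, tab_zero, tab_one, tab_two, tab_three]
  have := hcond k
  unfold eu
  simp only
  omega

/-- For tables whose rows `2` and `3` have sum one, a sum of products of a function of row `2`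
and a function of row `3` over all tables is a sum over the level set of the box. -/
theorem sum_tables (h2 : r 2 = 1) (h3 : r 3 = 1) (hc : ∑ j, c j = r 0 + r 1 + 2)
    (σ σ' : (Fin n → ℕ) → ℝ) :
    ∑ x : CT 4 n r c, σ (x.1 2) * σ' (x.1 3)
      = ∑ u ∈ lev c (r 0), (free c (fun j => σ (eu j)) u * free c (fun j => σ' (eu j)) u
          - sub1 c (fun j => σ (eu j)) (fun j => σ' (eu j)) u) := by
  classical
  rw [Finset.sum_congr rfl (fun u hu =>
    (sum_cond c (fun j => σ (eu j)) (fun j => σ' (eu j)) u ((mem_lev c (r 0) u).mp hu).1).symm)]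
  have e : ∑ u ∈ lev c (r 0), ∑ j, ∑ l,
        (if ∀ i, u i + (if i = j then 1 else 0) + (if i = l then 1 else 0) ≤ c i
          then σ (eu j) * σ' (eu l) else 0)
      = ∑ p ∈ ((lev c (r 0)) ×ˢ ((univ : Finset (Fin n)) ×ˢ (univ : Finset (Fin n)))).filter
          (fun p => ∀ i, p.1 i + (if i = p.2.1 then 1 else 0) + (if i = p.2.2 then 1 else 0)
            ≤ c i), σ (eu p.2.1) * σ' (eu p.2.2) := by
    rw [Finset.sum_filter, Finset.sum_product]
    refine Finset.sum_congr rfl (fun u _ => ?_)
    rw [Finset.sum_product]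
  rw [e]
  symm
  refine Finset.sum_bij
    (fun p hp => (⟨tab c p.1 p.2.1 p.2.2,
      tab_rows h2 h3 hc p.1 p.2.1 p.2.2 (Finset.mem_product.mp (Finset.mem_filter.mp hp).1).1
        (Finset.mem_filter.mp hp).2,
      tab_cols p.1 p.2.1 p.2.2 (Finset.mem_filter.mp hp).2⟩ : CT 4 n r c)) ?_ ?_ ?_ ?_
  · intro p hp
    exact Finset.mem_univ _
  · intro p hp q hq h
    have h0 := congrArg (fun y : CT 4 n r c => y.1 0) h
    have h2' := congrArg (fun y : CT 4 n r c => y.1 2) h
    have h3' := congrArg (fun y : CT 4 n r c => y.1 3) h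
    simp only [tab_zero, tab_two, tab_three] at h0 h2' h3'
    have hj := eu_injective h2'
    have hl := eu_injective h3'
    exact Prod.ext h0 (Prod.ext hj hl)
  · intro x _
    obtain ⟨j, hj⟩ := exists_eu x 2 h2
    obtain ⟨l, hl⟩ := exists_eu x 3 h3
    have hcol := col4 x
    have hcond : ∀ i, x.1 0 i + (if i = j then 1 else 0) + (if i = l then 1 else 0) ≤ c i := by
      intro i
      have h1 := hcol i
      have h2i := congrFun hj i
      have h3i := congrFun hl i
      unfold eu at h2i h3i
      omega
    have hu : x.1 0 ∈ lev c (r 0) := by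
      rw [mem_lev]
      refine ⟨fun k => ?_, x.2.1 0⟩
      have := hcol k
      omega
    refine ⟨(x.1 0, (j, l)), ?_, ?_⟩
    · rw [Finset.mem_filter, Finset.mem_product]
      exact ⟨⟨hu, Finset.mem_product.mpr ⟨Finset.mem_univ _, Finset.mem_univ _⟩⟩, hcond⟩
    · apply Subtype.ext
      funext i k
      have h1 := hcol k
      have h2i := congrFun hj k
      have h3i := congrFun hl k
      rcases four_cases i with rfl | rfl | rfl | rfl
      · rfl
      · show tab c (x.1 0) j l 1 k = x.1 1 k
        rw [tab_one]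
        unfold eu at h2i h3i
        simp only
        omega
      · show tab c (x.1 0) j l 2 k = x.1 2 k
        rw [tab_two, hj]
      · show tab c (x.1 0) j l 3 k = x.1 3 k
        rw [tab_three, hl]
  · intro p hp
    rfl

end tables

section main

variable {n : ℕ} {r : Fin 4 → ℕ} {c : Fin n → ℕ}

/-- **Negative correlation of two unit rows given two arbitrary rows**, from the box
inequality `Star`: a function of row `2` with zero sum over the tables has a nonpositive
correlation with the same function of row `3`. -/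
theorem negCorr_of_star (hstar : Star) (h2 : r 2 = 1) (h3 : r 3 = 1) (σ : (Fin n → ℕ) → ℝ)
    (h0 : ∑ x : CT 4 n r c, σ (x.1 2) = 0) :
    ∑ x : CT 4 n r c, σ (x.1 2) * σ (x.1 3) ≤ 0 := by
  classical
  by_cases hne : Nonempty (CT 4 n r c)
  swap
  · have hemp : IsEmpty (CT 4 n r c) := not_nonempty_iff.mp hne
    rw [Finset.univ_eq_empty, Finset.sum_empty]
  obtain ⟨x0⟩ := hne
  have hc : ∑ j, c j = r 0 + r 1 + 2 := by
    have := total4 x0
    omega
  have hss := sum_tables h2 h3 hc σ σ
  have hs1 := sum_tables h2 h3 hc σ (fun _ => 1)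
  have h11 := sum_tables (r := r) (c := c) h2 h3 hc (fun _ => 1) (fun _ => 1)
  simp only [mul_one] at hs1 h11
  rw [h0] at hs1
  have hB11 : 0 ≤ ∑ u ∈ lev c (r 0), (free c (fun _ => 1) u * free c (fun _ => 1) u
      - sub1 c (fun _ => 1) (fun _ => 1) u) := by
    rw [← h11]
    exact Finset.sum_nonneg (fun _ _ => zero_le_one)
  rw [hss]
  by_cases hΛ : ∑ u ∈ lev c (r 0), free c (fun _ => (1 : ℝ)) u = 0
  · -- no table has a free column: everything vanishes
    have hnn : ∀ u ∈ lev c (r 0), 0 ≤ free c (fun _ => (1 : ℝ)) u := by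
      intro u _
      unfold free
      exact Finset.sum_nonneg (fun j _ => by split_ifs <;> norm_num)
    have hz := (Finset.sum_eq_zero_iff_of_nonneg hnn).mp hΛ
    apply le_of_eq
    apply Finset.sum_eq_zero
    intro u hu
    have hzu := hz u hu
    unfold free at hzu
    have hzj := (Finset.sum_eq_zero_iff_of_nonneg
      (fun j _ => by split_ifs <;> norm_num)).mp hzu
    have hfull : ∀ j, ¬ (u j < c j) := by
      intro j hj
      have := hzj j (Finset.mem_univ j)
      rw [if_pos hj] at this
      exact absurd this (by norm_num)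
    have hf : free c (fun j => σ (eu j)) u = 0 := by
      unfold free
      exact Finset.sum_eq_zero (fun j _ => if_neg (hfull j))
    have hsb : sub1 c (fun j => σ (eu j)) (fun j => σ (eu j)) u = 0 := by
      unfold sub1
      refine Finset.sum_eq_zero (fun j _ => if_neg ?_)
      have := hfull j
      omega
    rw [hf, hsb]
    ring
  · set s : Fin n → ℝ := fun j => σ (eu j) with hs
    set θ : ℝ := -(∑ u ∈ lev c (r 0), free c s u) / (∑ u ∈ lev c (r 0), free c (fun _ => (1 : ℝ)) u)
      with hθ
    have hst := hstar n c (r 0) (fun j => s j + θ)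
    simp only [free_add, sub1_add] at hst
    have hexp : ∑ u ∈ lev c (r 0), ((free c s u + θ * free c (fun _ => 1) u) ^ 2
          - (sub1 c s s u + 2 * θ * sub1 c s (fun _ => 1) u
            + θ ^ 2 * sub1 c (fun _ => 1) (fun _ => 1) u))
        = ∑ u ∈ lev c (r 0), (free c s u * free c s u - sub1 c s s u)
          + 2 * θ * ∑ u ∈ lev c (r 0), (free c s u * free c (fun _ => 1) u
              - sub1 c s (fun _ => 1) u)
          + θ ^ 2 * ∑ u ∈ lev c (r 0), (free c (fun _ => 1) u * free c (fun _ => 1) u
              - sub1 c (fun _ => 1) (fun _ => 1) u) := by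
      rw [Finset.mul_sum, Finset.mul_sum, ← Finset.sum_add_distrib, ← Finset.sum_add_distrib]
      exact Finset.sum_congr rfl (fun u _ => by ring)
    have hlin : ∑ u ∈ lev c (r 0), (free c s u + θ * free c (fun _ => 1) u) = 0 := by
      rw [Finset.sum_add_distrib, ← Finset.mul_sum, hθ]
      field_simp
      ring
    rw [hexp, hlin, ← hs1] at hst
    have hw0 : (0 : ℝ) ≤ ((lev c (r 0)).card : ℝ) := Nat.cast_nonneg _
    by_cases hw : (lev c (r 0)).card = 0
    · rw [Finset.card_eq_zero.mp hw, Finset.sum_empty]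
    · have hwpos : (0 : ℝ) < ((lev c (r 0)).card : ℝ) := by
        exact_mod_cast Nat.pos_of_ne_zero hw
      by_contra hcon
      push Not at hcon
      have h1 := mul_pos hwpos hcon
      have h2 := mul_nonneg (mul_nonneg hwpos.le (sq_nonneg θ)) hB11
      nlinarith

/-- exchange of the rows `2` and `3` -/
def swapRows (h : r 2 = r 3) : CT 4 n r c ≃ CT 4 n r c where
  toFun x := ⟨fun i => x.1 (Equiv.swap 2 3 i),
    fun i => by
      rw [x.2.1]
      rw [Equiv.swap_apply_def]
      split_ifs with h1 h2
      · rw [h1, h]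
      · rw [h2, h]
      · rfl,
    fun j => by
      rw [Equiv.sum_comp (Equiv.swap (2 : Fin 4) 3) (fun i => x.1 i j)]
      exact x.2.2 j⟩
  invFun x := ⟨fun i => x.1 (Equiv.swap 2 3 i),
    fun i => by
      rw [x.2.1]
      rw [Equiv.swap_apply_def]
      split_ifs with h1 h2
      · rw [h1, h]
      · rw [h2, h]
      · rfl,
    fun j => by
      rw [Equiv.sum_comp (Equiv.swap (2 : Fin 4) 3) (fun i => x.1 i j)]
      exact x.2.2 j⟩
  left_inv x := by
    apply Subtype.ext
    funext i
    simp only [Equiv.swap_apply_self]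
  right_inv x := by
    apply Subtype.ext
    funext i
    simp only [Equiv.swap_apply_self]

theorem swapRows_val (h : r 2 = r 3) (x : CT 4 n r c) (i : Fin 4) :
    (swapRows h x).1 i = x.1 (Equiv.swap 2 3 i) := rfl

/-- The quadratic form of the global average. -/
theorem ip_R_univ4 (g : CT 4 n r c → ℝ) :
    ip g (RP.R univ g) = (∑ x, g x) ^ 2 / (Fintype.card (CT 4 n r c) : ℝ) := by
  unfold ip
  rw [Finset.sum_congr rfl (fun x _ => by rw [R_univ_apply]), ← Finset.sum_mul]
  ring

/-- If all rows outside `p` have sum zero, resampling `p` is the global average. -/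
theorem R_eq_univ_of_zero (a : Fin 4) (ha : r a = 0) (p : Finset (Fin 4))
    (hp : ∀ i, i ∉ p → i = a) :
    (RP.R p : (CT 4 n r c → ℝ) →ₗ[ℝ] (CT 4 n r c → ℝ)) = RP.R univ := by
  unfold RP.R
  apply cexp_congr_ker
  intro x y
  rw [mask_eq_iff, mask_eq_iff]
  constructor
  · intro _ i hi
    exact absurd (Finset.mem_univ i) hi
  · intro _ i hi
    rw [hp i hi]
    funext j
    have hx := entry_le x a j
    have hy := entry_le y a j
    rw [ha] at hx hy
    omega

/-- Resampling all rows but `a` is the conditional expectation given row `a`. -/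
theorem R_eq_cexp_row (a : Fin 4) (p : Finset (Fin 4)) (ha : a ∉ p)
    (hp : ∀ i, i ∉ p → i = a) :
    (RP.R p : (CT 4 n r c → ℝ) →ₗ[ℝ] (CT 4 n r c → ℝ)) = cexp (fun x : CT 4 n r c => x.1 a) := by
  unfold RP.R
  apply cexp_congr_ker
  intro x y
  rw [mask_eq_iff]
  constructor
  · intro h
    exact h a ha
  · intro h i hi
    rw [hp i hi]
    exact h

/-- **The sharp block triple.**  For `4 × n` tables whose rows `2` and `3` have sum at most
one (rows `0` and `1` and the column sums arbitrary), with the rows `0`, `1` taken as one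
block: the conditional expectations given row `3`, given row `2` and given the block add up
to at most twice the identity plus the global average.  (Assuming the box inequality
`Star`.) -/
theorem fourRow_block (hstar : Star) (n : ℕ) (r : Fin 4 → ℕ) (c : Fin n → ℕ) (h2 : r 2 ≤ 1)
    (h3 : r 3 ≤ 1) (g : CT 4 n r c → ℝ) :
    ip g (RP.R {0, 1, 2} g) + ip g (RP.R {0, 1, 3} g) + ip g (RP.R {2, 3} g)
      ≤ 2 * ip g g + ip g (RP.R univ g) := by
  classical
  have hle : ∀ p : Finset (Fin 4), ip g (RP.R p g) ≤ ip g g := fun p => ip_cexp_le _ g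
  by_cases h20 : r 2 = 0
  · have e : (RP.R ({0, 1, 3} : Finset (Fin 4)) : (CT 4 n r c → ℝ) →ₗ[ℝ] (CT 4 n r c → ℝ))
        = RP.R univ := R_eq_univ_of_zero 2 h20 _ (by decide)
    rw [e]
    have := hle {0, 1, 2}
    have := hle {2, 3}
    linarith
  by_cases h30 : r 3 = 0
  · have e : (RP.R ({0, 1, 2} : Finset (Fin 4)) : (CT 4 n r c → ℝ) →ₗ[ℝ] (CT 4 n r c → ℝ))
        = RP.R univ := R_eq_univ_of_zero 3 h30 _ (by decide)
    rw [e]
    have := hle {0, 1, 3}
    have := hle {2, 3}
    linarith
  have h21 : r 2 = 1 := by omega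
  have h31 : r 3 = 1 := by omega
  have h23 : r 2 = r 3 := by rw [h21, h31]
  have key := threeProj_of_swap (fun x : CT 4 n r c => mask ({2, 3} : Finset (Fin 4)) x.1)
    (fun x : CT 4 n r c => x.1 2) (fun x : CT 4 n r c => x.1 3) (swapRows h23)
    (by
      intro x
      rw [mask_eq_iff]
      intro i hi
      rw [swapRows_val]
      have h1 : i ≠ 2 := fun h => hi (by rw [h]; decide)
      have h2' : i ≠ 3 := fun h => hi (by rw [h]; decide)
      rw [Equiv.swap_apply_of_ne_of_ne h1 h2'])
    (by
      intro x
      show (swapRows h23 x).1 2 = x.1 3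
      rw [swapRows_val, Equiv.swap_apply_left])
    (by
      intro x
      show (swapRows h23 x).1 3 = x.1 2
      rw [swapRows_val, Equiv.swap_apply_right])
    (fun σ h0 => negCorr_of_star hstar h21 h31 σ h0) g
  have e1 : (RP.R ({0, 1, 2} : Finset (Fin 4)) : (CT 4 n r c → ℝ) →ₗ[ℝ] (CT 4 n r c → ℝ))
      = cexp (fun x : CT 4 n r c => x.1 3) := R_eq_cexp_row 3 _ (by decide) (by decide)
  have e2 : (RP.R ({0, 1, 3} : Finset (Fin 4)) : (CT 4 n r c → ℝ) →ₗ[ℝ] (CT 4 n r c → ℝ))
      = cexp (fun x : CT 4 n r c => x.1 2) := R_eq_cexp_row 2 _ (by decide) (by decide)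
  have e3 : (RP.R ({2, 3} : Finset (Fin 4)) : (CT 4 n r c → ℝ) →ₗ[ℝ] (CT 4 n r c → ℝ))
      = cexp (fun x : CT 4 n r c => mask ({2, 3} : Finset (Fin 4)) x.1) := rfl
  rw [e1, e2, e3, ip_R_univ4]
  linarith

end main

end Vale.Agent.Lib.P328.H85
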