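import Mathlib
import Vale.Agent.Lib.P328.helper74.ChainDefs
import Vale.Agent.Lib.P328.helper25.BoxBridge
import Vale.Agent.Lib.P328.helper85.FourRow

/-!
P328: the box inequality `Star` of `FourRow.lean` from the column step of the level
sequences (`Lor` of `helper74/ChainDefs.lean`, via `Box.Lor_box` of `helper25/BoxBridge.lean`),
and the resulting block inequality for `4 × n` tables with two unit rows.

* `star_of_step` : `Star`, given that the column step preserves `Lor`.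
* `fourRow_block_of_step`, `fourRow_block_of_step'` : the sharp block triple
  `⟨g, R {0,1,2} g⟩ + ⟨g, R {0,1,3} g⟩ + ⟨g, R {2,3} g⟩ ≤ 2 ⟨g, g⟩ + ⟨g, R univ g⟩`
  for row sums `r 2, r 3 ≤ 1`, given the column step.
-/

namespace Vale.Agent.Lib.P328.H85

open Finset
open Vale.Agent.Lib.P335.Bip
open Vale.Agent.Lib.P328.RP
open Vale.Agent.Lib.P328.helper74

section adapter

variable {n : ℕ}

theorem lev_eq_box (c : Fin n → ℕ) (ρ : ℕ) : lev c ρ = Box.lev c (ρ : ℤ) := by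
  ext u
  rw [mem_lev, Box.mem_lev]
  constructor
  · rintro ⟨h1, h2⟩
    exact ⟨h1, by rw [h2]⟩
  · rintro ⟨h1, h2⟩
    exact ⟨h1, by exact_mod_cast h2⟩

theorem free_eq (c : Fin n → ℕ) (s : Fin n → ℝ) (u : Fin n → ℕ) (hu : ∀ j, u j ≤ c j) :
    free c s u = (∑ j, s j) - Box.zs c s u := by
  unfold free Box.zs
  rw [← Finset.sum_sub_distrib]
  refine Finset.sum_congr rfl (fun j _ => ?_)
  have := hu j
  by_cases h : u j = c j
  · rw [if_pos h, if_neg (by omega)]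
    ring
  · rw [if_neg h, if_pos (by omega)]
    ring

theorem sub1_eq (c : Fin n → ℕ) (s : Fin n → ℝ) (u : Fin n → ℕ) :
    sub1 c s s u = Box.ds c s u := by
  unfold sub1 Box.ds
  refine Finset.sum_congr rfl (fun j _ => ?_)
  split_ifs <;> ring

end adapter

/-- The box inequality `Star`, given that the column step preserves `Lor`. -/
theorem star_of_step
    (hstep : ∀ (m C : ℕ) (t : ℝ) (w l q : ℤ → ℝ), Lor m w l q →
      Lor (m + C) (addW C w) (addL C t w l) (addQ C t w l q)) : Star := by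
  intro n c ρ s
  have hL := Lor_gamma (Box.Lor_box hstep n c s) (ρ : ℤ)
  unfold Box.wS Box.lS Box.qS at hL
  rw [lev_eq_box]
  have hf : ∀ u ∈ Box.lev c (ρ : ℤ), free c s u = (∑ j, s j) - Box.zs c s u :=
    fun u hu => free_eq c s u ((Box.mem_lev c _ u).mp hu).1
  have e1 : ∑ u ∈ Box.lev c (ρ : ℤ), (free c s u ^ 2 - sub1 c s s u)
      = (∑ j, s j) ^ 2 * ((Box.lev c (ρ : ℤ)).card : ℝ)
        - 2 * (∑ j, s j) * ∑ u ∈ Box.lev c (ρ : ℤ), Box.zs c s u
        + ∑ u ∈ Box.lev c (ρ : ℤ), (Box.zs c s u ^ 2 - Box.ds c s u) := by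
    have hterm : ∀ u ∈ Box.lev c (ρ : ℤ), free c s u ^ 2 - sub1 c s s u
        = (∑ j, s j) ^ 2 - 2 * (∑ j, s j) * Box.zs c s u
          + (Box.zs c s u ^ 2 - Box.ds c s u) := by
      intro u hu
      rw [hf u hu, sub1_eq]
      ring
    rw [Finset.sum_congr rfl hterm, Finset.sum_add_distrib, Finset.sum_sub_distrib,
      Finset.sum_const, ← Finset.mul_sum, nsmul_eq_mul]
    ring
  have e2 : ∑ u ∈ Box.lev c (ρ : ℤ), free c s u
      = (∑ j, s j) * ((Box.lev c (ρ : ℤ)).card : ℝ) - ∑ u ∈ Box.lev c (ρ : ℤ), Box.zs c s u := by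
    rw [Finset.sum_congr rfl hf, Finset.sum_sub_distrib, Finset.sum_const, nsmul_eq_mul]
    ring
  rw [e1, e2]
  have hid : ((∑ j, s j) * ((Box.lev c (ρ : ℤ)).card : ℝ)
        - ∑ u ∈ Box.lev c (ρ : ℤ), Box.zs c s u) ^ 2
      - ((Box.lev c (ρ : ℤ)).card : ℝ) * ((∑ j, s j) ^ 2 * ((Box.lev c (ρ : ℤ)).card : ℝ)
        - 2 * (∑ j, s j) * ∑ u ∈ Box.lev c (ρ : ℤ), Box.zs c s u
        + ∑ u ∈ Box.lev c (ρ : ℤ), (Box.zs c s u ^ 2 - Box.ds c s u))
      = (∑ u ∈ Box.lev c (ρ : ℤ), Box.zs c s u) ^ 2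
        - ((Box.lev c (ρ : ℤ)).card : ℝ)
          * ∑ u ∈ Box.lev c (ρ : ℤ), (Box.zs c s u ^ 2 - Box.ds c s u) := by
    ring
  linarith

/-- **The sharp block triple, given the column step.**  For `4 × n` tables whose rows `2` and
`3` have sum at most one (rows `0`, `1` and the column sums arbitrary). -/
theorem fourRow_block_of_step
    (hstep : ∀ (m C : ℕ) (t : ℝ) (w l q : ℤ → ℝ), Lor m w l q →
      Lor (m + C) (addW C w) (addL C t w l) (addQ C t w l q))
    (n : ℕ) (r : Fin 4 → ℕ) (c : Fin n → ℕ) (h2 : r 2 ≤ 1) (h3 : r 3 ≤ 1)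
    (g : CT 4 n r c → ℝ) :
    ip g (RP.R {0, 1, 2} g) + ip g (RP.R {0, 1, 3} g) + ip g (RP.R {2, 3} g)
      ≤ 2 * ip g g + ip g (RP.R univ g) :=
  fourRow_block (star_of_step hstep) n r c h2 h3 g

/-- The same with the three terms in the order block, row `2`, row `3`. -/
theorem fourRow_block_of_step'
    (hstep : ∀ (m C : ℕ) (t : ℝ) (w l q : ℤ → ℝ), Lor m w l q →
      Lor (m + C) (addW C w) (addL C t w l) (addQ C t w l q))
    (n : ℕ) (r : Fin 4 → ℕ) (c : Fin n → ℕ) (h2 : r 2 ≤ 1) (h3 : r 3 ≤ 1)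
    (g : CT 4 n r c → ℝ) :
    ip g (RP.R {2, 3} g) + ip g (RP.R {0, 1, 3} g) + ip g (RP.R {0, 1, 2} g)
      ≤ 2 * ip g g + ip g (RP.R univ g) := by
  have h := fourRow_block (star_of_step hstep) n r c h2 h3 g
  linarith

end Vale.Agent.Lib.P328.H85
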