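import Mathlib
import Vale.Agent.Lib.P328.helper24.LorStep
import Vale.Agent.Lib.P328.helper85.FourRowFinal

/-!
P328: the sharp block triple for `4 × n` contingency tables with two unit rows, without
hypotheses.

For `4 × n` tables whose rows `2` and `3` have sum at most one (the rows `0`, `1` and all
column sums arbitrary), with the rows `0`, `1` taken as one block: the conditional
expectations given row `3`, given row `2` and given the block add up to at most twice the
identity plus the global average, as quadratic forms under the uniform measure.

* `star` : the box inequality `Star` (negative correlation of two unit rows given two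
  arbitrary rows, in counting form).
* `fourRow_two_units`, `fourRow_two_units'` : the block inequality, in two orders of the
  three terms.
-/

namespace Vale.Agent.Lib.P328.H85

open Finset
open Vale.Agent.Lib.P335.Bip
open Vale.Agent.Lib.P328.RP
open Vale.Agent.Lib.P328.helper74

/-- The box inequality `Star`. -/
theorem star : Star :=
  star_of_step (fun _ C t _ _ _ h => Vale.Agent.Lib.P328.helper24.Lor_step C t h)

/-- **The sharp block triple.**  For `4 × n` tables whose rows `2` and `3` have sum at most
one (rows `0`, `1` and the column sums arbitrary). -/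
theorem fourRow_two_units (n : ℕ) (r : Fin 4 → ℕ) (c : Fin n → ℕ) (h2 : r 2 ≤ 1) (h3 : r 3 ≤ 1)
    (g : CT 4 n r c → ℝ) :
    ip g (RP.R {0, 1, 2} g) + ip g (RP.R {0, 1, 3} g) + ip g (RP.R {2, 3} g)
      ≤ 2 * ip g g + ip g (RP.R univ g) :=
  fourRow_block star n r c h2 h3 g

/-- The same with the three terms in the order block, row `2`, row `3`. -/
theorem fourRow_two_units' (n : ℕ) (r : Fin 4 → ℕ) (c : Fin n → ℕ) (h2 : r 2 ≤ 1)
    (h3 : r 3 ≤ 1) (g : CT 4 n r c → ℝ) :
    ip g (RP.R {2, 3} g) + ip g (RP.R {0, 1, 3} g) + ip g (RP.R {0, 1, 2} g)
      ≤ 2 * ip g g + ip g (RP.R univ g) := by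
  have h := fourRow_block star n r c h2 h3 g
  linarith

end Vale.Agent.Lib.P328.H85
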