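import Mathlib
import Vale.Agent.Lib.P328.RP.Defs
import Vale.Agent.Lib.P328.RP.ThreeProj
import Vale.Agent.Lib.P328.RP.RowPerm
import Vale.Agent.Lib.P328.helper85.BlockTriple
import Vale.Agent.Lib.P328.helper85.FourRow

/-!
P328: the sharp block triple for a block of arbitrarily many rows and two unit rows.

In any system of `m × n` contingency tables let `a ≠ b` be two rows of sum at most one and
let the block consist of all other rows (arbitrary row sums, any number of rows).  Then the
conditional expectations given row `a`, given row `b` and given the block add up to at most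
twice the identity plus the global average, as quadratic forms under the uniform measure.

* `rest q n r c j l` : the `q × n` arrays with row sums `r` and column sums `c - e_j - e_l`.
* `NCq` : the counting inequality the matrix of the numbers `|rest q n r c j l|` has at
  most one positive eigenvalue (the only input).
* `sum_tables_q` : for tables whose rows `0`, `1` have sum one, sums of products of a
  function of row `0` and a function of row `1` in terms of the numbers `|rest|`.
* `negCorr_first`, `negCorr_gen` : negative correlation of two unit rows.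
* `blockRow_two_units` : the block inequality
  `⟨g, R (univ.erase a) g⟩ + ⟨g, R (univ.erase b) g⟩ + ⟨g, R {a, b} g⟩ ≤ 2 ⟨g, g⟩ + ⟨g, R univ g⟩`.
-/

namespace Vale.Agent.Lib.P328.H85

open Finset
open Vale.Agent.Lib.P335.Bip
open Vale.Agent.Lib.P328.RP

section generic

variable {m n : ℕ} {r : Fin m → ℕ} {c : Fin n → ℕ}

/-- a row with sum one is a unit row -/
theorem exists_eu_gen (x : CT m n r c) (a : Fin m) (ha : r a = 1) : ∃ j, x.1 a = eu j := by
  have hs : ∑ j, x.1 a j = 1 := by rw [x.2.1 a, ha]
  have hex : ∃ j, x.1 a j ≠ 0 := by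
    by_contra hcon
    push Not at hcon
    rw [Finset.sum_eq_zero (fun j _ => hcon j)] at hs
    exact absurd hs (by norm_num)
  obtain ⟨j, hj⟩ := hex
  have h1 : x.1 a j + ∑ l ∈ univ.erase j, x.1 a l = ∑ l, x.1 a l :=
    Finset.add_sum_erase univ (fun l => x.1 a l) (Finset.mem_univ j)
  rw [hs] at h1
  have h2 : ∑ l ∈ univ.erase j, x.1 a l = 0 := by omega
  refine ⟨j, ?_⟩
  funext l
  unfold eu
  by_cases hl : l = j
  · rw [if_pos hl, hl]
    omega
  · rw [if_neg hl]
    exact (Finset.sum_eq_zero_iff.mp h2) l (Finset.mem_erase.mpr ⟨hl, Finset.mem_univ l⟩)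

/-- The quadratic form of the global average. -/
theorem ip_R_univ_gen (g : CT m n r c → ℝ) :
    ip g (RP.R univ g) = (∑ x, g x) ^ 2 / (Fintype.card (CT m n r c) : ℝ) := by
  unfold ip
  rw [Finset.sum_congr rfl (fun x _ => by rw [R_univ_apply]), ← Finset.sum_mul]
  ring

/-- If all rows outside `p` have sum zero, resampling `p` is the global average. -/
theorem R_eq_univ_of_zero_gen (a : Fin m) (ha : r a = 0) (p : Finset (Fin m))
    (hp : ∀ i, i ∉ p → i = a) :
    (RP.R p : (CT m n r c → ℝ) →ₗ[ℝ] (CT m n r c → ℝ)) = RP.R univ := by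
  unfold RP.R
  apply cexp_congr_ker
  intro x y
  rw [mask_eq_iff, mask_eq_iff]
  constructor
  · intro _ i hi
    exact absurd (Finset.mem_univ i) hi
  · intro _ i hi
    rw [hp i hi]
    funext j
    have hx := entry_le x a j
    have hy := entry_le y a j
    rw [ha] at hx hy
    omega

/-- Resampling all rows but `a` is the conditional expectation given row `a`. -/
theorem R_erase_eq_gen (a : Fin m) :
    (RP.R (univ.erase a) : (CT m n r c → ℝ) →ₗ[ℝ] (CT m n r c → ℝ))
      = cexp (fun x : CT m n r c => x.1 a) := by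
  unfold RP.R
  apply cexp_congr_ker
  intro x y
  rw [mask_eq_iff]
  constructor
  · intro h
    exact h a (Finset.notMem_erase a univ)
  · intro h i hi
    have hia : i = a := by
      by_contra hne
      exact hi (Finset.mem_erase.mpr ⟨hne, Finset.mem_univ i⟩)
    rw [hia]
    exact h

/-- exchange of the rows `a` and `b` -/
def swapRowsGen (a b : Fin m) (h : r a = r b) : CT m n r c ≃ CT m n r c where
  toFun x := ⟨fun i => x.1 (Equiv.swap a b i),
    fun i => by
      rw [x.2.1]
      rw [Equiv.swap_apply_def]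
      split_ifs with h1 h2
      · rw [h1, h]
      · rw [h2, h]
      · rfl,
    fun j => by
      rw [Equiv.sum_comp (Equiv.swap a b) (fun i => x.1 i j)]
      exact x.2.2 j⟩
  invFun x := ⟨fun i => x.1 (Equiv.swap a b i),
    fun i => by
      rw [x.2.1]
      rw [Equiv.swap_apply_def]
      split_ifs with h1 h2
      · rw [h1, h]
      · rw [h2, h]
      · rfl,
    fun j => by
      rw [Equiv.sum_comp (Equiv.swap a b) (fun i => x.1 i j)]
      exact x.2.2 j⟩
  left_inv x := by
    apply Subtype.ext
    funext i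
    simp only [Equiv.swap_apply_self]
  right_inv x := by
    apply Subtype.ext
    funext i
    simp only [Equiv.swap_apply_self]

theorem swapRowsGen_val (a b : Fin m) (h : r a = r b) (x : CT m n r c) (i : Fin m) :
    (swapRowsGen a b h x).1 i = x.1 (Equiv.swap a b i) := rfl

end generic

section counting

/-- The `q × n` arrays of natural numbers with row sums `r` whose column sums, increased by
one in column `j` and by one in column `l`, are `c` (column sums `c - e_j - e_l`). -/
def rest (q n : ℕ) (r : Fin q → ℕ) (c : Fin n → ℕ) (j l : Fin n) :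
    Finset (Fin q → Fin n → ℕ) :=
  (Fintype.piFinset fun _ : Fin q =>
    Fintype.piFinset fun j' : Fin n => Finset.range (c j' + 1)).filter
    (fun k => (∀ i, ∑ j', k i j' = r i) ∧
      ∀ j', ∑ i, k i j' + (if j' = j then 1 else 0) + (if j' = l then 1 else 0) = c j')

theorem mem_rest (q n : ℕ) (r : Fin q → ℕ) (c : Fin n → ℕ) (j l : Fin n)
    (k : Fin q → Fin n → ℕ) :
    k ∈ rest q n r c j l ↔ (∀ i, ∑ j', k i j' = r i) ∧
      ∀ j', ∑ i, k i j' + (if j' = j then 1 else 0) + (if j' = l then 1 else 0) = c j' := by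
  unfold rest
  rw [Finset.mem_filter]
  constructor
  · exact fun h => h.2
  · intro h
    refine ⟨?_, h⟩
    rw [Fintype.mem_piFinset]
    intro i
    rw [Fintype.mem_piFinset]
    intro j'
    rw [Finset.mem_range]
    have h1 := h.2 j'
    have h2 : k i j' ≤ ∑ i, k i j' :=
      Finset.single_le_sum (f := fun i => k i j') (fun _ _ => Nat.zero_le _) (Finset.mem_univ i)
    omega

/-- The counting inequality: for every number `q` of rows, all row sums `r` and column sums
`c`, the symmetric matrix `H j l = |rest q n r c j l|` (the number of `q × n` tables with row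
sums `r` and column sums `c - e_j - e_l`) satisfies `(vᵀ H v) (1ᵀ H 1) ≤ (vᵀ H 1) ^ 2` for all
real `v`, i.e. it has at most one positive eigenvalue. -/
def NCq : Prop :=
  ∀ (q n : ℕ) (r : Fin q → ℕ) (c : Fin n → ℕ) (v : Fin n → ℝ),
    (∑ j, ∑ l, v j * v l * ((rest q n r c j l).card : ℝ))
        * (∑ j, ∑ l, ((rest q n r c j l).card : ℝ))
      ≤ (∑ j, ∑ l, v j * ((rest q n r c j l).card : ℝ)) ^ 2

end counting

section first

variable {q n : ℕ} {r : Fin (q + 2) → ℕ} {c : Fin n → ℕ}

/-- The array with rows `e_j`, `e_l` and then the rows of `k`. -/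
def tabq (j l : Fin n) (k : Fin q → Fin n → ℕ) : Fin (q + 2) → Fin n → ℕ :=
  Fin.cons (eu j) (Fin.cons (eu l) k)

theorem tabq_zero (j l : Fin n) (k : Fin q → Fin n → ℕ) : tabq j l k 0 = eu j := by
  unfold tabq
  rw [Fin.cons_zero]

theorem tabq_one (j l : Fin n) (k : Fin q → Fin n → ℕ) : tabq j l k 1 = eu l := by
  unfold tabq
  rw [← Fin.succ_zero_eq_one, Fin.cons_succ, Fin.cons_zero]

theorem tabq_succ (j l : Fin n) (k : Fin q → Fin n → ℕ) (i : Fin q) :
    tabq j l k i.succ.succ = k i := by
  unfold tabq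
  rw [Fin.cons_succ, Fin.cons_succ]

/-- splitting a sum over the rows -/
theorem sum_rows (f : Fin (q + 2) → ℕ) : ∑ i, f i = f 0 + f 1 + ∑ i : Fin q, f i.succ.succ := by
  rw [Fin.sum_univ_succ, Fin.sum_univ_succ, Fin.succ_zero_eq_one]
  ring

theorem tabq_rows (h0 : r 0 = 1) (h1 : r 1 = 1) (j l : Fin n) (k : Fin q → Fin n → ℕ)
    (hk : k ∈ rest q n (fun i => r i.succ.succ) c j l) (i : Fin (q + 2)) :
    ∑ j', tabq j l k i j' = r i := by
  have hk' := ((mem_rest q n _ c j l k).mp hk).1
  refine Fin.cases ?_ (fun i => ?_) i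
  · rw [tabq_zero, sum_eu, h0]
  · refine Fin.cases ?_ (fun i => ?_) i
    · rw [Fin.succ_zero_eq_one, tabq_one, sum_eu, h1]
    · rw [tabq_succ]
      exact hk' i

theorem tabq_cols (j l : Fin n) (k : Fin q → Fin n → ℕ)
    (hk : k ∈ rest q n (fun i => r i.succ.succ) c j l) (j' : Fin n) :
    ∑ i, tabq j l k i j' = c j' := by
  have hk' := ((mem_rest q n _ c j l k).mp hk).2 j'
  rw [sum_rows (fun i => tabq j l k i j'), tabq_zero, tabq_one]
  have h3 : ∑ i : Fin q, tabq j l k i.succ.succ j' = ∑ i : Fin q, k i j' :=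
    Finset.sum_congr rfl (fun i _ => by rw [tabq_succ])
  rw [h3]
  unfold eu
  omega

/-- For tables whose rows `0` and `1` have sum one, a sum of products of a function of row
`0` and a function of row `1` over all tables, in terms of the numbers of tables of the
other rows. -/
theorem sum_tables_q (h0 : r 0 = 1) (h1 : r 1 = 1) (σ σ' : (Fin n → ℕ) → ℝ) :
    ∑ x : CT (q + 2) n r c, σ (x.1 0) * σ' (x.1 1)
      = ∑ j, ∑ l, σ (eu j) * σ' (eu l)
          * ((rest q n (fun i => r i.succ.succ) c j l).card : ℝ) := by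
  classical
  have e : ∑ j, ∑ l, σ (eu j) * σ' (eu l)
        * ((rest q n (fun i => r i.succ.succ) c j l).card : ℝ)
      = ∑ t ∈ ((univ : Finset (Fin n)) ×ˢ (univ : Finset (Fin n))).sigma
          (fun p => rest q n (fun i => r i.succ.succ) c p.1 p.2),
          σ (eu t.1.1) * σ' (eu t.1.2) := by
    rw [Finset.sum_sigma, Finset.sum_product]
    refine Finset.sum_congr rfl (fun j _ => Finset.sum_congr rfl (fun l _ => ?_))
    show _ = ∑ _s ∈ rest q n (fun i => r i.succ.succ) c j l, σ (eu j) * σ' (eu l)
    rw [Finset.sum_const, nsmul_eq_mul, mul_comm]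
  rw [e]
  symm
  refine Finset.sum_bij
    (fun t ht => (⟨tabq t.1.1 t.1.2 t.2,
      tabq_rows h0 h1 t.1.1 t.1.2 t.2 (Finset.mem_sigma.mp ht).2,
      tabq_cols t.1.1 t.1.2 t.2 (Finset.mem_sigma.mp ht).2⟩ : CT (q + 2) n r c)) ?_ ?_ ?_ ?_
  · intro t ht
    exact Finset.mem_univ _
  · intro t ht t' ht' h
    have hz := congrArg (fun y : CT (q + 2) n r c => y.1 0) h
    have ho := congrArg (fun y : CT (q + 2) n r c => y.1 1) h
    simp only [tabq_zero, tabq_one] at hz ho
    have hj := eu_injective hz
    have hl := eu_injective ho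
    have hk : t.2 = t'.2 := by
      funext i
      have hs := congrArg (fun y : CT (q + 2) n r c => y.1 i.succ.succ) h
      simp only [tabq_succ] at hs
      exact hs
    exact Sigma.ext (Prod.ext hj hl) (heq_of_eq hk)
  · intro x _
    obtain ⟨j, hj⟩ := exists_eu_gen x 0 h0
    obtain ⟨l, hl⟩ := exists_eu_gen x 1 h1
    have hk : (fun i : Fin q => x.1 i.succ.succ) ∈ rest q n (fun i => r i.succ.succ) c j l := by
      rw [mem_rest]
      refine ⟨fun i => x.2.1 i.succ.succ, fun j' => ?_⟩
      have hc := x.2.2 j'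
      rw [sum_rows (fun i => x.1 i j'), hj, hl] at hc
      unfold eu at hc
      omega
    refine ⟨⟨(j, l), fun i => x.1 i.succ.succ⟩, ?_, ?_⟩
    · rw [Finset.mem_sigma]
      exact ⟨Finset.mem_product.mpr ⟨Finset.mem_univ _, Finset.mem_univ _⟩, hk⟩
    · apply Subtype.ext
      funext i
      refine Fin.cases ?_ (fun i => ?_) i
      · show tabq j l (fun i : Fin q => x.1 i.succ.succ) 0 = x.1 0
        rw [tabq_zero, hj]
      · refine Fin.cases ?_ (fun i => ?_) i
        · show tabq j l (fun i : Fin q => x.1 i.succ.succ) (Fin.succ 0) = x.1 (Fin.succ 0)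
          rw [Fin.succ_zero_eq_one, tabq_one, hl]
        · show tabq j l (fun i : Fin q => x.1 i.succ.succ) i.succ.succ = x.1 i.succ.succ
          rw [tabq_succ]
  · intro t ht
    show σ (eu t.1.1) * σ' (eu t.1.2)
      = σ (tabq t.1.1 t.1.2 t.2 0) * σ' (tabq t.1.1 t.1.2 t.2 1)
    rw [tabq_zero, tabq_one]

/-- **Negative correlation of two unit rows given all other rows** (rows `0` and `1`). -/
theorem negCorr_first (hNC : NCq) (h0 : r 0 = 1) (h1 : r 1 = 1) (σ : (Fin n → ℕ) → ℝ)
    (hσ : ∑ x : CT (q + 2) n r c, σ (x.1 0) = 0) :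
    ∑ x : CT (q + 2) n r c, σ (x.1 0) * σ (x.1 1) ≤ 0 := by
  classical
  by_cases hne : Nonempty (CT (q + 2) n r c)
  swap
  · have hemp : IsEmpty (CT (q + 2) n r c) := not_nonempty_iff.mp hne
    rw [Finset.univ_eq_empty, Finset.sum_empty]
  have hss := sum_tables_q (c := c) h0 h1 σ σ
  have hs1 := sum_tables_q (c := c) h0 h1 σ (fun _ => 1)
  have h11 := sum_tables_q (r := r) (c := c) h0 h1 (fun _ => 1) (fun _ => 1)
  simp only [mul_one, one_mul] at hs1 h11
  have key : (∑ j, ∑ l, σ (eu j) * σ (eu l)
        * ((rest q n (fun i => r i.succ.succ) c j l).card : ℝ))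
      * (∑ j, ∑ l, ((rest q n (fun i => r i.succ.succ) c j l).card : ℝ))
      ≤ (∑ j, ∑ l, σ (eu j) * ((rest q n (fun i => r i.succ.succ) c j l).card : ℝ)) ^ 2 :=
    hNC q n (fun i => r i.succ.succ) c (fun j => σ (eu j))
  rw [← hss, ← hs1, ← h11, hσ] at key
  have hpos : (0 : ℝ) < ∑ _x : CT (q + 2) n r c, (1 : ℝ) := by
    rw [Finset.sum_const, nsmul_eq_mul, mul_one]
    exact_mod_cast Finset.card_pos.mpr Finset.univ_nonempty
  by_contra hcon
  push Not at hcon
  have := mul_pos hcon hpos
  nlinarith

end first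

section general

variable {m n : ℕ} {r : Fin m → ℕ} {c : Fin n → ℕ}

/-- **Negative correlation of two unit rows given all other rows**, for any two rows. -/
theorem negCorr_gen (hNC : NCq) (a b : Fin m) (hab : a ≠ b) (ha : r a = 1) (hb : r b = 1)
    (σ : (Fin n → ℕ) → ℝ) (hσ : ∑ x : CT m n r c, σ (x.1 a) = 0) :
    ∑ x : CT m n r c, σ (x.1 a) * σ (x.1 b) ≤ 0 := by
  classical
  cases m with
  | zero => exact a.elim0
  | succ m =>
    cases m with
    | zero =>
      have h1 := a.isLt
      have h2 := b.isLt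
      exact absurd (Fin.ext (by omega)) hab
    | succ q =>
      -- a permutation of the rows with `π 0 = a`, `π 1 = b`
      set τ1 : Equiv.Perm (Fin (q + 2)) := Equiv.swap 1 b with hτ1
      set τ2 : Equiv.Perm (Fin (q + 2)) := Equiv.swap 0 (τ1 a) with hτ2
      set π : Equiv.Perm (Fin (q + 2)) := τ1 * τ2 with hπ
      have h01 : (0 : Fin (q + 2)) ≠ 1 := by
        intro h
        have := congrArg Fin.val h
        simp at this
      have hne1 : τ1 a ≠ 1 := by
        intro h
        have h2 : τ1 (τ1 a) = τ1 1 := congrArg τ1 h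
        rw [hτ1, Equiv.swap_apply_self, Equiv.swap_apply_left] at h2
        exact hab h2
      have hπ0 : π 0 = a := by
        rw [hπ, Equiv.Perm.mul_apply, hτ2, Equiv.swap_apply_left, hτ1, Equiv.swap_apply_self]
      have hπ1 : π 1 = b := by
        rw [hπ, Equiv.Perm.mul_apply, hτ2,
          Equiv.swap_apply_of_ne_of_ne (Ne.symm h01) (Ne.symm hne1), hτ1,
          Equiv.swap_apply_left]
      have h0 : (r ∘ π) 0 = 1 := by
        rw [Function.comp_apply, hπ0, ha]
      have h1 : (r ∘ π) 1 = 1 := by
        rw [Function.comp_apply, hπ1, hb]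
      have hrow : ∀ (F : (Fin n → ℕ) → (Fin n → ℕ) → ℝ),
          ∑ x : CT (q + 2) n r c, F (x.1 a) (x.1 b)
            = ∑ y : CT (q + 2) n (r ∘ π) c, F (y.1 0) (y.1 1) := by
        intro F
        rw [← Equiv.sum_comp (rperm π) (fun y : CT (q + 2) n (r ∘ π) c => F (y.1 0) (y.1 1))]
        refine Finset.sum_congr rfl (fun x _ => ?_)
        rw [rperm_val, rperm_val, hπ0, hπ1]
      have e1 := hrow (fun u _ => σ u)
      have e2 := hrow (fun u w => σ u * σ w)
      rw [e2]
      apply negCorr_first hNC h0 h1 σ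
      rw [← e1]
      exact hσ

/-- **The sharp block triple for any block and two unit rows.**  In any system of `m × n`
tables, for two rows `a ≠ b` of sum at most one and the block of all other rows (arbitrary
row sums, any number of rows; all column sums arbitrary): the conditional expectations
given row `a`, given row `b` and given the block add up to at most twice the identity plus
the global average.  (Assuming the counting inequality `NCq`.) -/
theorem blockRow_two_units (hNC : NCq) (m n : ℕ) (r : Fin m → ℕ) (c : Fin n → ℕ) (a b : Fin m)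
    (hab : a ≠ b) (ha : r a ≤ 1) (hb : r b ≤ 1) (g : CT m n r c → ℝ) :
    ip g (RP.R (univ.erase a) g) + ip g (RP.R (univ.erase b) g) + ip g (RP.R {a, b} g)
      ≤ 2 * ip g g + ip g (RP.R univ g) := by
  classical
  have hle : ∀ p : Finset (Fin m), ip g (RP.R p g) ≤ ip g g := fun p => ip_cexp_le _ g
  by_cases ha0 : r a = 0
  · have e : (RP.R (univ.erase a) : (CT m n r c → ℝ) →ₗ[ℝ] (CT m n r c → ℝ)) = RP.R univ :=
      R_eq_univ_of_zero_gen a ha0 _ (fun i hi => by
        by_contra hne
        exact hi (Finset.mem_erase.mpr ⟨hne, Finset.mem_univ i⟩))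
    rw [e]
    have := hle (univ.erase b)
    have := hle {a, b}
    linarith
  by_cases hb0 : r b = 0
  · have e : (RP.R (univ.erase b) : (CT m n r c → ℝ) →ₗ[ℝ] (CT m n r c → ℝ)) = RP.R univ :=
      R_eq_univ_of_zero_gen b hb0 _ (fun i hi => by
        by_contra hne
        exact hi (Finset.mem_erase.mpr ⟨hne, Finset.mem_univ i⟩))
    rw [e]
    have := hle (univ.erase a)
    have := hle {a, b}
    linarith
  have ha1 : r a = 1 := by omega
  have hb1 : r b = 1 := by omega
  have hrab : r a = r b := by rw [ha1, hb1]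
  have key := threeProj_of_swap
    (fun x : CT m n r c => mask ({a, b} : Finset (Fin m)) x.1)
    (fun x : CT m n r c => x.1 a) (fun x : CT m n r c => x.1 b) (swapRowsGen a b hrab)
    (by
      intro x
      rw [mask_eq_iff]
      intro i hi
      rw [swapRowsGen_val]
      have h1 : i ≠ a := fun h => hi (by rw [h]; exact Finset.mem_insert_self a {b})
      have h2 : i ≠ b := fun h => hi (by
        rw [h]
        exact Finset.mem_insert_of_mem (Finset.mem_singleton_self b))
      rw [Equiv.swap_apply_of_ne_of_ne h1 h2])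
    (by
      intro x
      show (swapRowsGen a b hrab x).1 a = x.1 b
      rw [swapRowsGen_val, Equiv.swap_apply_left])
    (by
      intro x
      show (swapRowsGen a b hrab x).1 b = x.1 a
      rw [swapRowsGen_val, Equiv.swap_apply_right])
    (fun σ h0 => negCorr_gen hNC a b hab ha1 hb1 σ h0) g
  have e3 : (RP.R ({a, b} : Finset (Fin m)) : (CT m n r c → ℝ) →ₗ[ℝ] (CT m n r c → ℝ))
      = cexp (fun x : CT m n r c => mask ({a, b} : Finset (Fin m)) x.1) := rfl
  rw [R_erase_eq_gen a, R_erase_eq_gen b, e3, ip_R_univ_gen]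
  linarith

end general

end Vale.Agent.Lib.P328.H85
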