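import Mathlib
import Vale.Agent.Lib.P328.helper85.BlockRow
import Vale.Agent.Lib.P328.helper55.UnitRowsNC

/-!
P328: the two forms of the rank-one bound for the counts of tables with two units removed
from the column sums agree.

`UnitRows.Hcount r c j l` counts a subtype with `Nat.card`; `H85.rest q n r c j l` is the
same set of tables as a `Finset`.  This file identifies the two counts, hence the two
statements `UnitRows.NCq` and `H85.NCq`.
-/

namespace Vale.Agent.Lib.P328.H85

open Finset
open Vale.Agent.Lib.P328.RP

/-- the count `Hcount` is the cardinality of the finite set `rest` -/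
theorem Hcount_eq_rest (q n : ℕ) (r : Fin q → ℕ) (c : Fin n → ℕ) (j l : Fin n) :
    UnitRows.Hcount r c j l = ((rest q n r c j l).card : ℝ) := by
  unfold UnitRows.Hcount
  have h : Nat.card {k : Fin q → Fin n → ℕ // (∀ i, ∑ j', k i j' = r i) ∧
      ∀ j', (∑ i, k i j') + (if j' = j then 1 else 0) + (if j' = l then 1 else 0) = c j'}
      = (rest q n r c j l).card := by
    rw [← Nat.card_eq_finsetCard (rest q n r c j l)]
    exact Nat.card_congr (Equiv.subtypeEquivRight fun k => (mem_rest q n r c j l k).symm)
  rw [h]

/-- the two forms of the rank-one bound are the same statement -/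
theorem NCq_iff : UnitRows.NCq ↔ NCq := by
  unfold UnitRows.NCq NCq
  constructor
  · intro h q n r c v
    have := h q n r c v
    simpa only [Hcount_eq_rest] using this
  · intro h q n r c v
    have := h q n r c v
    simpa only [Hcount_eq_rest] using this

end Vale.Agent.Lib.P328.H85
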